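import Vale.Agent.P022D.W.Typ
import Vale.Agent.P022D.W.Tame
import Vale.Agent.P022D.Loc2.Dec
import Vale.Agent.P022D.G.Defs
import Vale.Agent.P022.H346.FAlg

/-!
# P022F, block Gm: the entries of a generalised matrix algebra (statements)
-/

set_option linter.all false

noncomputable section

namespace Vale.Agent.P022F.Gm

open Vale.Agent.P022 Vale.Agent.P022.H346 Vale.Agent.P022D Vale.Agent.P022D.W

section
variable {G A : Type} [Group G] [CommRing A]

/-- the first diagonal entry -/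
def aa (t : G → A) (g0 : G) (β u : A) (g : G) : A := u * (t (g * g0) - β * t g)

/-- the second diagonal entry -/
def ee (t : G → A) (g0 : G) (β u : A) (g : G) : A := t g - aa t g0 β u g

/-- the product of the upper entry of `g` and the lower entry of `h` -/
def xx (t : G → A) (g0 : G) (β u : A) (g h : G) : A :=
  aa t g0 β u (g * h) - aa t g0 β u g * aa t g0 β u h

/-- the identities -/
structure Fn (d : G →* Aˣ) (g0 : G) (α β : A) (a e : G → A) (x : G → G → A) : Prop where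
  a1 : a 1 = 1
  e1 : e 1 = 1
  a0 : a g0 = α
  e0 : e g0 = β
  am : ∀ g h, a (g * h) = a g * a h + x g h
  em : ∀ g h, e (g * h) = e g * e h + x h g
  xl : ∀ g g' h, x (g * g') h = a g * x g' h + e g' * x g h
  xr : ∀ g h h', x g (h * h') = x g h * a h' + e h * x g h'
  x0l : ∀ h, x g0 h = 0
  x0r : ∀ g, x g g0 = 0
  det : ∀ g, (d g : A) = a g * e g - x g g

end

/-- row GMA -/
def GMA : Prop := ∀ (G A : Type) [Group G] [CommRing A] (t : G → A) (d : G →* Aˣ) (g0 : G)
  (α β u : A), TF t d → α + β = t g0 → α * β = (d g0 : A) → u * (α - β) = 1 →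
  Fn d g0 α β (aa t g0 β u) (ee t g0 β u) (xx t g0 β u)

/-- row WL: a tame local pseudo character which is residually the sum of two different characters
is the sum of two characters -/
def WL : Prop := ∀ (G A F Γ : Type) [Group G] [CommRing A] [Field F] [CharP F 2] [Group Γ]
  [Finite Γ] (π : A →+* F) (t : G → A) (d : G →* Aˣ) (rb : G →* Mt F) (l : ℕ) (I N : Subgroup G)
  (τ φ g0 : G) (f : G →* Γ), LR π → Function.Surjective π → TF t d →
  (∀ g, π (t g) = (rb g).trace) → (∀ g, π (d g : A) = 1) → (∀ g, (rb g).det = 1) →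
  (∀ g, rb g 0 1 = 0 ∧ rb g 1 0 = 0) → rb g0 0 0 ≠ rb g0 1 1 → TameAt l ⊤ I N τ φ f →
  (∀ u, f u = 1 → ∀ g, t (g * u) = t g) →
  ∃ σ : G →* Mt A, Lift π rb σ ∧ (∀ g, trc σ g = t g) ∧ (∀ g, dtm σ g = (d g : A)) ∧
    ∀ u, (∀ g, t (g * u) = t g) → σ u = 1

/-- row Q8: the quadratic characters which are unramified outside `2` -/
def Q8 : Prop := ∃ (h : Fin 2 → GQ) (n : GQ → Fin 2 → ℕ), (∀ i, h i ∈ W.dec (Loc2.PP 2)) ∧
  ∀ (V : Type) [AddCommGroup V] (ξ : GQ → V), (∀ v : V, v + v = 0) →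
    (∀ g k, ξ (g * k) = ξ g + ξ k) → IsOpen {g : GQ | ξ g = 0} →
    (∀ l : ℕ, l.Prime → l ≠ 2 → ∀ g, G.Inert l g → ξ g = 0) →
    ∀ g, ξ g = n g 0 • ξ (h 0) + n g 1 • ξ (h 1)

end Vale.Agent.P022F.Gm
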