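import Vale.Agent.P022F.Quad
import Vale.Agent.P022F.Gm.Defs

/-!
# P022F, row Q8: additive characters of exponent two unramified outside `2`
-/

set_option linter.all false

open NumberField

noncomputable section

namespace Vale.Agent.P022F.Gm

open Vale.Agent.P022 Vale.Agent.P022.H853 Vale.Agent.P022.H790.CT Vale.Agent.P022D

/-- the exponents of a unit modulo `8` with respect to `-1` and `5` -/
def q8n (x : ZMod (2 ^ 3)) : Fin 2 → ℕ :=
  ![if x = -1 ∨ x = 3 then 1 else 0, if x = 5 ∨ x = 3 then 1 else 0]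

theorem q8n_spec : ∀ x y : ZMod (2 ^ 3), x * y = 1 →
    x * (-1) ^ (q8n x 0) * 5 ^ (q8n x 1) = 1 := by decide

theorem q8 : Q8 := by
  obtain ⟨s, hs, h5⟩ := H297.L3.inert_cyc (m := 2 ^ 3) (k := 3) (m' := 1) Nat.prime_two
    (mul_one _).symm (Nat.coprime_one_right 2) (Loc2.PP_prime 2) (Loc2.p_mem_PP 2)
    ⟨5, 5, by decide, by decide⟩ (Nat.modEq_one)
  obtain ⟨c, hc, h7⟩ := H297.L3.inert_cyc (m := 2 ^ 3) (k := 3) (m' := 1) Nat.prime_two
    (mul_one _).symm (Nat.coprime_one_right 2) (Loc2.PP_prime 2) (Loc2.p_mem_PP 2)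
    ⟨-1, -1, by decide, by decide⟩ (Nat.modEq_one)
  have c1 : (cyc (2 ^ 3) c : ZMod (2 ^ 3)) = -1 := by rw [h7]
  have c2 : (cyc (2 ^ 3) s : ZMod (2 ^ 3)) = 5 := by rw [h5]
  refine ⟨![c, s], fun g => q8n (cyc (2 ^ 3) g : ZMod (2 ^ 3)), fun i => ?_,
    fun V _ ξ h2 hp ho hu g => ?_⟩
  · refine Fin.cases (W.inP_le_dec hc) (fun j => ?_) i
    refine Fin.cases (W.inP_le_dec hs) (fun k => k.elim0) j
  have p1 : ξ 1 = 0 := by
    have := hp 1 1
    rw [mul_one] at this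
    exact left_eq_add.1 this
  have pinv : ∀ g, ξ g = 0 → ξ g⁻¹ = 0 := fun g hg => by
    have := hp g g⁻¹
    rwa [mul_inv_cancel, p1, hg, zero_add, eq_comm] at this
  have ppow : ∀ (g : GQ) (n : ℕ), ξ (g ^ n) = n • ξ g := fun g n => by
    induction n with
    | zero => rw [pow_zero, p1, zero_smul]
    | succ n ih => rw [pow_succ, hp, ih, succ_nsmul]
  let U : Subgroup GQ :=
    { carrier := {g | ξ g = 0}
      one_mem' := p1
      mul_mem' := fun {a b} ha hb => by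
        show ξ (a * b) = 0
        rw [hp, show ξ a = 0 from ha, show ξ b = 0 from hb, add_zero]
      inv_mem' := fun {a} ha => pinv a ha }
  letI : Module (ZMod 2) V := AddCommGroup.zmodModule (fun v => by rw [two_nsmul, h2])
  have k : ∀ g, cyc (2 ^ 3) g = 1 → ξ g = 0 := fun g hg =>
    (Module.forall_dual_apply_eq_zero_iff (ZMod 2) (ξ g)).1 fun φ =>
      Quad.ker8 (fun g => φ (ξ g)) (fun g h => by rw [hp, map_add])
        ⟨U, ho, fun u hu => by rw [show ξ u = 0 from hu, map_zero]⟩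
        (fun l hl l2 P hP hlP s hs => by rw [hu l hl l2 s ⟨P, hP, hlP, hs⟩, map_zero]) hg
  have e := q8n_spec _ _ (cyc (2 ^ 3) g).mul_inv
  have e2 := k (g * c ^ q8n (cyc (2 ^ 3) g : ZMod (2 ^ 3)) 0 *
      s ^ q8n (cyc (2 ^ 3) g : ZMod (2 ^ 3)) 1) (Units.ext (by
    rw [map_mul, map_mul, map_pow, map_pow, Units.val_mul, Units.val_mul, Units.val_pow_eq_pow_val,
      Units.val_pow_eq_pow_val, c1, c2]
    exact e))
  rw [hp, hp, ppow, ppow, add_assoc] at e2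
  show ξ g = q8n (cyc (2 ^ 3) g : ZMod (2 ^ 3)) 0 • ξ c + q8n (cyc (2 ^ 3) g : ZMod (2 ^ 3)) 1 • ξ s
  have e3 := h2 (q8n (cyc (2 ^ 3) g : ZMod (2 ^ 3)) 0 • ξ c +
    q8n (cyc (2 ^ 3) g : ZMod (2 ^ 3)) 1 • ξ s)
  exact add_right_cancel (e2.trans e3.symm)

end Vale.Agent.P022F.Gm
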